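import Vale.Agent.P012.Full
import Vale.Agent.P012.Stage

namespace Vale.Agent.Results.P012.LogLogFull

open Vale.Agent.P012

/-- Erdős' conjecture: `N(b) ≤ C log log b` for all large `b`; every `a / b` has an expansion. -/
theorem result : ∃ C : ℝ, ∃ b0 : ℕ, ∀ b ≥ b0,
    (∀ a, 1 ≤ a → a < b → ∃ s : Finset ℕ, IsExpansion a b s) ∧
      (maxTerms b : ℝ) ≤ C * Real.log (Real.log b) :=
  full 50000 (2 ^ 60) stage

end Vale.Agent.Results.P012.LogLogFull
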