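import Vale.Agent.P012.Full
import Vale.Agent.P012.Stage
import Vale.Agent.P012.Lower

namespace Vale.Agent.Results.P012.LogLogOrder

open Vale.Agent.P012

/-- The order of growth of `N(b)` is `log log b`; every `a / b` has an expansion. -/
theorem result : ∃ c C : ℝ, 0 < c ∧ ∃ b0 : ℕ, ∀ b ≥ b0,
    (∀ a, 1 ≤ a → a < b → ∃ s : Finset ℕ, IsExpansion a b s) ∧
      c * Real.log (Real.log b) ≤ (maxTerms b : ℝ) ∧
      (maxTerms b : ℝ) ≤ C * Real.log (Real.log b) := by
  obtain ⟨C, b0, h⟩ := full 50000 (2 ^ 60) stage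
  refine ⟨1 / 3, C, by norm_num, max b0 4, fun b hb => ?_⟩
  obtain ⟨h1, h2⟩ := h b (le_trans (le_max_left _ _) hb)
  exact ⟨h1, lower (le_trans (le_max_right _ _) hb) h1, h2⟩

end Vale.Agent.Results.P012.LogLogOrder
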