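import Vale.Agent.P012.Rung1

namespace Vale.Agent.Results.P012.LogLogSquared

open Vale.Agent.P012

/-- `N(b) ≤ C (log log b)²` for all large `b`; every `a / b` has an expansion. -/
theorem result : ∃ C : ℝ, ∃ b0 : ℕ, ∀ b ≥ b0,
    (∀ a, 1 ≤ a → a < b → ∃ s : Finset ℕ, IsExpansion a b s) ∧
      (maxTerms b : ℝ) ≤ C * (Real.log (Real.log b)) ^ 2 :=
  rung1

end Vale.Agent.Results.P012.LogLogSquared
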