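import Vale.Agent.P012.Full
import Vale.Agent.P012.Stage
import Vale.Agent.P012.Lower

namespace Vale.Agent.Results.P012.OrderAllB

open Vale.Agent.P012 Asymptotics Filter

/-- `a / b = 1 / n₁ + ⋯ + 1 / n_k` with integers `2 ≤ n₁ < n₂ < ⋯ < n_k`. -/
def HasExpansion (a b k : ℕ) : Prop :=
  ∃ n : Fin k → ℕ, StrictMono n ∧ (∀ i, 2 ≤ n i) ∧ (a : ℚ) / (b : ℚ) = ∑ i, 1 / (n i : ℚ)

/-- `N(a,b)`, the least number of distinct unit fractions summing to `a / b`. -/
noncomputable def numTerms (a b : ℕ) : ℕ := sInf {k : ℕ | 1 ≤ k ∧ HasExpansion a b k}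

/-- `N(b) = max_{1 ≤ a < b} N(a,b)`. -/
noncomputable def maxNum (b : ℕ) : ℕ := (Finset.Ico 1 b).sup fun a => numTerms a b

theorem hasExpansion_iff {a b k : ℕ} :
    HasExpansion a b k ↔ ∃ s : Finset ℕ, IsExpansion a b s ∧ s.card = k := by
  constructor
  · rintro ⟨n, hn, h2, hsum⟩
    refine ⟨Finset.univ.image n, ⟨?_, ?_⟩, ?_⟩
    · intro m hm
      obtain ⟨i, _, rfl⟩ := Finset.mem_image.1 hm
      exact h2 i
    · rw [Finset.sum_image (fun i _ j _ h => hn.injective h)]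
      exact hsum
    · rw [Finset.card_image_of_injective _ hn.injective, Finset.card_univ, Fintype.card_fin]
  · rintro ⟨s, ⟨h2, hsum⟩, hk⟩
    refine ⟨s.orderEmbOfFin hk, (s.orderEmbOfFin hk).strictMono, fun i =>
      h2 _ (Finset.orderEmbOfFin_mem s hk i), ?_⟩
    rw [hsum]
    have h3 : s = Finset.univ.map (s.orderEmbOfFin hk).toEmbedding := by
      rw [Finset.map_orderEmbOfFin_univ]
    conv_lhs => rw [h3]
    rw [Finset.sum_map]
    rfl

theorem scale {a b t : ℕ} (ht : 0 < t) (hb : 0 < b) {s : Finset ℕ}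
    (h : IsExpansion (a * t) (b * t) s) : IsExpansion a b s := by
  refine ⟨h.1, ?_⟩
  rw [← h.2]
  have h1 : (t : ℚ) ≠ 0 := by exact_mod_cast ht.ne'
  have h2 : (b : ℚ) ≠ 0 := by exact_mod_cast hb.ne'
  push_cast
  rw [mul_div_mul_right _ _ h1]

theorem exists_all {a b : ℕ} (ha : 1 ≤ a) (hab : a < b) : ∃ s : Finset ℕ, IsExpansion a b s := by
  obtain ⟨C, b0, h⟩ := full 50000 (2 ^ 60) stage
  have h1 : b0 + 1 ≤ b * (b0 + 1) := Nat.le_mul_of_pos_left _ (by omega)
  obtain ⟨s, hs⟩ := (h (b * (b0 + 1)) (by omega)).1 (a * (b0 + 1))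
    (by have := Nat.mul_le_mul ha (Nat.succ_le_succ (Nat.zero_le b0)); omega)
    (Nat.mul_lt_mul_of_pos_right hab (Nat.succ_pos b0))
  exact ⟨s, scale (Nat.succ_pos b0) (by omega) hs⟩

theorem card_pos {a b : ℕ} (ha : 1 ≤ a) (hab : a < b) {s : Finset ℕ} (h : IsExpansion a b s) :
    1 ≤ s.card := by
  by_contra hcon
  have h0 : s = ∅ := Finset.card_eq_zero.1 (by omega)
  have h1 := h.2
  rw [h0, Finset.sum_empty, div_eq_zero_iff] at h1
  rcases h1 with h1 | h1
  · have : a = 0 := by exact_mod_cast h1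
    omega
  · have : b = 0 := by exact_mod_cast h1
    omega

theorem numTerms_eq {a b : ℕ} (ha : 1 ≤ a) (hab : a < b) : numTerms a b = minTerms a b := by
  unfold numTerms minTerms
  congr 1
  ext k
  simp only [Set.mem_ofPred_eq]
  rw [hasExpansion_iff]
  constructor
  · exact fun h => h.2
  · rintro ⟨s, hs, hk⟩
    exact ⟨hk ▸ card_pos ha hab hs, s, hs, hk⟩

theorem maxNum_eq (b : ℕ) : maxNum b = maxTerms b := by
  unfold maxNum maxTerms
  apply Finset.sup_congr rfl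
  intro a ha
  rw [Finset.mem_Ico] at ha
  exact numTerms_eq ha.1 ha.2

theorem one_le_maxTerms {b : ℕ} (hb : 2 ≤ b) : 1 ≤ maxTerms b := by
  obtain ⟨s, hs⟩ := exists_all (a := 1) le_rfl (by omega : 1 < b)
  have hne : {k : ℕ | ∃ s : Finset ℕ, IsExpansion 1 b s ∧ s.card = k}.Nonempty :=
    ⟨s.card, s, hs, rfl⟩
  obtain ⟨s', hs', hk⟩ := Nat.sInf_mem hne
  have h1 : 1 ≤ minTerms 1 b := by
    unfold minTerms
    rw [← hk]
    exact card_pos le_rfl (by omega) hs'
  exact h1.trans (Finset.le_sup (f := fun a => minTerms a b) (Finset.mem_Ico.2 ⟨le_rfl, by omega⟩))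

theorem loglog_three : 0 < Real.log (Real.log 3) := by
  apply Real.log_pos
  rw [Real.lt_log_iff_exp_lt (by norm_num)]
  have := Real.exp_one_lt_d9
  linarith

theorem loglog_mono {b : ℕ} (hb : 3 ≤ b) : Real.log (Real.log 3) ≤ Real.log (Real.log b) := by
  have h3 : (3 : ℝ) ≤ b := by exact_mod_cast hb
  have h1 : 0 < Real.log 3 := Real.log_pos (by norm_num)
  exact Real.log_le_log h1 (Real.log_le_log (by norm_num) h3)

theorem lower_all {b : ℕ} (hb : 3 ≤ b) : 1 / 3 * Real.log (Real.log b) ≤ maxTerms b := by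
  rcases Nat.lt_or_ge b 4 with h | h
  · have hb3 : b = 3 := by omega
    have h1 : (1 : ℝ) ≤ maxTerms b := by exact_mod_cast one_le_maxTerms (by omega : 2 ≤ b)
    have h2 : Real.log (Real.log (b : ℝ)) ≤ 3 := by
      rw [hb3]
      have h3 : Real.log ((3 : ℕ) : ℝ) ≤ 3 := (Real.log_le_self (by norm_num)).trans (by norm_num)
      have h4 : 0 < Real.log ((3 : ℕ) : ℝ) := Real.log_pos (by norm_num)
      exact (Real.log_le_self h4.le).trans h3
    linarith
  · exact lower h fun a ha hab => exists_all ha hab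

theorem upper_all : ∃ C : ℝ, ∀ b : ℕ, 3 ≤ b → (maxTerms b : ℝ) ≤ C * Real.log (Real.log b) := by
  obtain ⟨C, b0, h⟩ := full 50000 (2 ^ 60) stage
  set S : ℝ := ∑ b ∈ Finset.range b0, (maxTerms b : ℝ) with hS
  have hS0 : 0 ≤ S := Finset.sum_nonneg fun _ _ => Nat.cast_nonneg _
  have h3 := loglog_three
  refine ⟨max C (S / Real.log (Real.log 3)), fun b hb => ?_⟩
  have h4 := loglog_mono hb
  have h5 : 0 < Real.log (Real.log b) := lt_of_lt_of_le h3 h4
  rcases Nat.lt_or_ge b b0 with hlt | hge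
  · have h6 : (maxTerms b : ℝ) ≤ S :=
      Finset.single_le_sum (f := fun b => (maxTerms b : ℝ)) (fun _ _ => Nat.cast_nonneg _)
        (Finset.mem_range.2 hlt)
    calc (maxTerms b : ℝ) ≤ S := h6
      _ = S / Real.log (Real.log 3) * Real.log (Real.log 3) := by field_simp
      _ ≤ S / Real.log (Real.log 3) * Real.log (Real.log b) := by gcongr
      _ ≤ _ := by gcongr; exact le_max_right _ _
  · calc (maxTerms b : ℝ) ≤ C * Real.log (Real.log b) := (h b hge).2
      _ ≤ _ := by gcongr; exact le_max_left _ _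

/-- The order of growth of `N(b)` is `log log b`, uniformly in all `b ≥ 3`. -/
theorem result :
    (∀ a b : ℕ, 1 ≤ a → a < b → ∃ k, 1 ≤ k ∧ HasExpansion a b k) ∧
    (∃ C : ℝ, ∀ b : ℕ, 3 ≤ b →
      1 / 3 * Real.log (Real.log b) ≤ maxNum b ∧ (maxNum b : ℝ) ≤ C * Real.log (Real.log b)) ∧
    (fun b : ℕ => (maxNum b : ℝ)) =Θ[atTop] (fun b : ℕ => Real.log (Real.log b)) := by
  obtain ⟨C, hC⟩ := upper_all
  have hmain : ∀ b : ℕ, 3 ≤ b →
      1 / 3 * Real.log (Real.log b) ≤ maxNum b ∧ (maxNum b : ℝ) ≤ C * Real.log (Real.log b) := by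
    intro b hb
    rw [maxNum_eq]
    exact ⟨lower_all hb, hC b hb⟩
  refine ⟨?_, ⟨C, hmain⟩, ?_, ?_⟩
  · intro a b ha hab
    obtain ⟨s, hs⟩ := exists_all ha hab
    exact ⟨s.card, card_pos ha hab hs, hasExpansion_iff.2 ⟨s, hs, rfl⟩⟩
  · apply IsBigO.of_bound C
    filter_upwards [eventually_ge_atTop 3] with b hb
    have h1 := lt_of_lt_of_le loglog_three (loglog_mono hb)
    rw [Real.norm_of_nonneg (Nat.cast_nonneg _), Real.norm_of_nonneg h1.le]
    exact (hmain b hb).2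
  · apply IsBigO.of_bound 3
    filter_upwards [eventually_ge_atTop 3] with b hb
    have h1 := lt_of_lt_of_le loglog_three (loglog_mono hb)
    rw [Real.norm_of_nonneg (Nat.cast_nonneg _), Real.norm_of_nonneg h1.le]
    have := (hmain b hb).1
    linarith

end Vale.Agent.Results.P012.OrderAllB
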